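import Vale.Agent.P042.R2.H757.Spec
import Mathlib.NumberTheory.EulerProduct.Basic

set_option autoImplicit false

/-! Row EUL of P042.MultiplicativeStatistics (helper844). -/

namespace Vale.Agent.P042.H844

open Finset Vale.Agent.P042.H757

theorem W_one (z : ℝ) : W z 1 = 1 := by simp [W]

theorem W_mul (z : ℝ) {m n : ℕ} (h : Nat.Coprime m n) (hm : m ≠ 0) (hn : n ≠ 0) :
    W z (m * n) = W z m * W z n := by
  unfold W
  rw [h.primeFactors_mul, Finset.prod_union h.disjoint_primeFactors]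
  congr 1
  · refine Finset.prod_congr rfl fun p hp => ?_
    have hp' := Nat.mem_primeFactors.1 hp
    have h0 : n.factorization p = 0 := by
      apply Nat.factorization_eq_zero_of_not_dvd
      intro hd
      exact hp'.1.one_lt.ne' (Nat.dvd_one.1 (h ▸ Nat.dvd_gcd hp'.2.1 hd))
    rw [Nat.factorization_mul hm hn]
    simp [h0]
  · refine Finset.prod_congr rfl fun p hp => ?_
    have hp' := Nat.mem_primeFactors.1 hp
    have h0 : m.factorization p = 0 := by
      apply Nat.factorization_eq_zero_of_not_dvd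
      intro hd
      exact hp'.1.one_lt.ne' (Nat.dvd_one.1 (h ▸ Nat.dvd_gcd hd hp'.2.1))
    rw [Nat.factorization_mul hm hn]
    simp [h0]

theorem W_nonneg {z : ℝ} (hz : 1 ≤ z) (n : ℕ) : 0 ≤ W z n := by
  unfold W
  refine Finset.prod_nonneg fun p _ => ?_
  unfold wt
  split_ifs
  · linarith
  · positivity

theorem W_pow (z : ℝ) {p : ℕ} (hp : p.Prime) (e : ℕ) : W z (p ^ (e + 1)) = wt z p (e + 1) := by
  unfold W
  rw [Nat.primeFactors_prime_pow (Nat.succ_ne_zero e) hp, Finset.prod_singleton,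
    hp.factorization_pow]
  simp

/-- the summand -/
noncomputable def f (z : ℝ) (n : ℕ) : ℝ := W z n / n

theorem f_mul (z : ℝ) {m n : ℕ} (h : Nat.Coprime m n) : f z (m * n) = f z m * f z n := by
  unfold f
  rcases eq_or_ne m 0 with rfl | hm
  · simp
  rcases eq_or_ne n 0 with rfl | hn
  · simp
  rw [W_mul z h hm hn]
  push_cast
  rw [mul_div_mul_comm]

theorem f_pow_two (z : ℝ) {p : ℕ} (hp : p.Prime) (e : ℕ) :
    f z (p ^ (e + 2)) = (Real.sqrt p)⁻¹ ^ (e + 2) := by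
  have hp0 : (0 : ℝ) < p := by exact_mod_cast hp.pos
  have hs : (0 : ℝ) < Real.sqrt p := Real.sqrt_pos.2 hp0
  unfold f
  rw [show e + 2 = (e + 1) + 1 from rfl, W_pow z hp]
  unfold wt
  rw [if_neg (by omega)]
  have h1 : (p : ℝ) ^ (((e + 1 + 1 : ℕ) : ℝ) / 2) = Real.sqrt p ^ (e + 1 + 1) := by
    rw [Real.sqrt_eq_rpow, ← Real.rpow_natCast, ← Real.rpow_mul hp0.le]
    congr 1
    ring
  rw [h1]
  push_cast
  rw [← div_pow]
  congr 1
  rw [div_eq_iff hp0.ne']
  have h2 : Real.sqrt p * Real.sqrt p = p := Real.mul_self_sqrt hp0.le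
  field_simp
  linarith [h2, sq (Real.sqrt p)]

theorem r_bd {p : ℕ} (hp : p.Prime) :
    0 < (Real.sqrt p)⁻¹ ∧ (Real.sqrt p)⁻¹ ≤ 3 / 4 ∧ (Real.sqrt p)⁻¹ ^ 2 = 1 / p := by
  have hp0 : (0 : ℝ) < p := by exact_mod_cast hp.pos
  have hp2 : (2 : ℝ) ≤ p := by exact_mod_cast hp.two_le
  have hs : (0 : ℝ) < Real.sqrt p := Real.sqrt_pos.2 hp0
  have h2 : (Real.sqrt p)⁻¹ ^ 2 = 1 / p := by
    rw [inv_pow, Real.sq_sqrt hp0.le, one_div]
  refine ⟨inv_pos.2 hs, ?_, h2⟩
  have h3 : (Real.sqrt p)⁻¹ ^ 2 ≤ (3 / 4) ^ 2 := by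
    rw [h2, div_le_iff₀ hp0]
    nlinarith
  exact le_of_sq_le_sq' h3 (by norm_num)
where
  le_of_sq_le_sq' {a b : ℝ} (h : a ^ 2 ≤ b ^ 2) (hb : 0 ≤ b) : a ≤ b := by
    exact le_of_abs_le (by rw [← abs_of_nonneg hb]; exact sq_le_sq.1 h)

theorem f_tsum {z : ℝ} (hz : 1 ≤ z) {p : ℕ} (hp : p.Prime) :
    Summable (fun n : ℕ => ‖f z (p ^ n)‖) ∧
      ∑' n : ℕ, f z (p ^ n) ≤ 1 + (z + 4) / p := by
  obtain ⟨h0, h1, h2⟩ := r_bd hp
  have hp0 : (0 : ℝ) < p := by exact_mod_cast hp.pos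
  set r := (Real.sqrt p)⁻¹ with hr
  have hg : ∀ e, f z (p ^ (e + 2)) = r ^ (e + 2) := fun e => f_pow_two z hp e
  have hr1 : r < 1 := by linarith
  have hs : Summable (fun e : ℕ => f z (p ^ e)) := by
    rw [← summable_nat_add_iff 2]
    simp only [hg]
    exact (summable_nat_add_iff 2).2 (summable_geometric_of_lt_one h0.le hr1)
  have hnn : ∀ e, 0 ≤ f z (p ^ e) := fun e => div_nonneg (W_nonneg hz _) (Nat.cast_nonneg _)
  refine ⟨hs.norm, ?_⟩
  rw [← hs.sum_add_tsum_nat_add 2]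
  have ht : ∑' e : ℕ, f z (p ^ (e + 2)) ≤ 4 / p := by
    simp only [hg]
    have : ∑' e : ℕ, r ^ (e + 2) = r ^ 2 * (1 - r)⁻¹ := by
      rw [← tsum_geometric_of_lt_one h0.le hr1, ← tsum_mul_left]
      refine tsum_congr fun e => ?_
      rw [pow_add, mul_comm]
    rw [this, h2]
    have h3 : (1 - r)⁻¹ ≤ 4 := by
      rw [inv_le_comm₀ (by linarith) (by norm_num)]
      linarith
    calc 1 / (p : ℝ) * (1 - r)⁻¹ ≤ 1 / p * 4 := by gcongr
      _ = 4 / p := by ring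
  have hf0 : f z (p ^ 0) = 1 := by simp [f, W_one]
  have hf1 : f z (p ^ 1) = z / p := by
    have : W z (p ^ (0 + 1)) = z := by rw [W_pow z hp]; simp [wt]
    simp only [zero_add] at this
    unfold f
    rw [this]
    simp
  rw [Finset.sum_range_succ, Finset.sum_range_one, hf0, hf1]
  have : (z + 4) / (p : ℝ) = z / p + 4 / p := by ring
  linarith

theorem rowEul : StEul := by
  intro N z hz
  have hE := EulerProduct.summable_and_hasSum_smoothNumbers_prod_primesBelow_tsum (f := f z)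
    (by simp [f, W_one]) (fun h => f_mul z h) (fun hp => (f_tsum hz hp).1) (N + 1)
  have hmem : ∀ n ∈ Icc 1 N, n ∈ Nat.smoothNumbers (N + 1) := by
    intro n hn
    rw [Finset.mem_Icc] at hn
    rw [Nat.mem_smoothNumbers]
    refine ⟨by omega, fun q hq => ?_⟩
    have := Nat.le_of_mem_primeFactorsList hq
    omega
  classical
  have h1 : ∑ n ∈ Icc 1 N, W z n / n ≤
      ∏ p ∈ (N + 1).primesBelow, ∑' e : ℕ, f z (p ^ e) := by
    have h2 : ∑ i ∈ (Icc 1 N).subtype (fun x => x ∈ Nat.smoothNumbers (N + 1)), f z i ≤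
        ∏ p ∈ (N + 1).primesBelow, ∑' e : ℕ, f z (p ^ e) :=
      sum_le_hasSum _ (fun i _ => div_nonneg (W_nonneg hz _) (Nat.cast_nonneg _)) hE.2
    have h5 : ∑ i ∈ (Icc 1 N).subtype (fun x => x ∈ Nat.smoothNumbers (N + 1)), f z i =
        ∑ i ∈ Icc 1 N, f z i :=
      Finset.sum_subtype_of_mem (p := fun x => x ∈ Nat.smoothNumbers (N + 1)) (f z) hmem
    rw [h5] at h2
    exact h2
  refine h1.trans ?_
  have h3 : (N + 1).primesBelow = (Icc 1 N).filter Nat.Prime := by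
    ext p
    simp only [Nat.primesBelow, Finset.mem_filter, Finset.mem_range, Finset.mem_Icc]
    constructor
    · rintro ⟨h, hp⟩
      exact ⟨⟨hp.one_lt.le, by omega⟩, hp⟩
    · rintro ⟨h, hp⟩
      exact ⟨by omega, hp⟩
  rw [h3, Finset.mul_sum, Real.exp_sum]
  refine Finset.prod_le_prod (fun p _ => tsum_nonneg fun e =>
    div_nonneg (W_nonneg hz _) (Nat.cast_nonneg _)) fun p hp => ?_
  have hp' := (Finset.mem_filter.1 hp).2
  calc ∑' e : ℕ, f z (p ^ e) ≤ 1 + (z + 4) / p := (f_tsum hz hp').2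
    _ ≤ Real.exp ((z + 4) * (1 / p)) := by
        have := Real.add_one_le_exp ((z + 4) * (1 / (p : ℝ)))
        have h4 : (z + 4) * (1 / (p : ℝ)) = (z + 4) / p := by ring
        linarith

end Vale.Agent.P042.H844
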